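import Vale.Agent.P286EXV.Ev
import Vale.Agent.P286EXK.A
import Vale.Agent.P286EC.Avk

/-!
# The level `0` in the group direction
-/

set_option linter.all false

namespace Vale.Agent.P286EX

open CategoryTheory TensorProduct Vale.Agent.P286 Vale.Agent.P286.St Vale.Agent.P286.H847
  Vale.Agent.P286.H710 Vale.Agent.P286.H697 Vale.Agent.P286E Vale.Agent.P286EC
open Vale.Agent.P286.H389 (outM)

noncomputable section

section Pull

variable {A T : Type} [CommRing A] [Algebra ℂ A] [CommRing T] [Algebra ℂ T] [Algebra A T]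
  [IsScalarTower ℂ A T] (b : H710.DB ℂ A) (M : H697.DGM A) (h : T →ₗ[A] A)

/-- The contraction of the pull-back with a linear form. -/
def ctrP : GD.Hom (pullD T b M).M M.M where
  f := ((TensorProduct.lid A M.M.V).toLinearMap ∘ₗ h.rTensor M.M.V).restrictScalars ℂ
  comm z := by
    change T ⊗[A] M.M.V at z
    induction z using TensorProduct.induction_on with
    | zero => exact (congrArg _ (map_zero _)).trans ((map_zero _).trans
        ((congrArg M.M.d (map_zero _)).trans (map_zero _)).symm)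
    | tmul x y => exact (M.d_smul (h x) y).symm
    | add x y hx hy =>
      exact (congrArg _ (map_add _ x y)).trans ((map_add _ _ _).trans ((congrArg₂ (· + ·) hx hy).trans
        ((congrArg M.M.d (map_add _ x y)).trans (map_add _ _ _)).symm))
  deg m z hz := pgr_ind M (Q := fun z => (TensorProduct.lid A M.M.V).toLinearMap
      (h.rTensor M.M.V z) ∈ M.M.gr m) (by rw [map_zero, map_zero]; exact zero_mem _)
    (fun x y hy => M.gr_smul m (h x) y hy)
    (fun x y hx hy => by rw [map_add, map_add]; exact add_mem hx hy) hz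

theorem pi0_kv0 {B : Type} [CommRing B] [Algebra ℂ B] (b' : H710.DB ℂ (A ⊗[ℂ] B)) (w : Om ℂ B)
    (y : (drO b M).M.V) :
    (pi0 b' (pullD (A ⊗[ℂ] B) b M)).f ((kv0 B b M b').f (kel b' w y)) =
      ((1 : A) ⊗ₜ[ℂ] aug0 B w) ⊗ₜ[A] (pi0 b M).f y := by
  have h1 : (pi0 b' (pullD (A ⊗[ℂ] B) b M)).f (((pullI (T := A ⊗[ℂ] B) b M).dr b b').f y) =
      (1 : A ⊗[ℂ] B) ⊗ₜ[A] (pi0 b M).f y :=
    outM_pbT (sA ℂ A (A ⊗[ℂ] B)) (pullI (T := A ⊗[ℂ] B) b M).a (pullI b M).smul y
  refine (pi0_smul b' (pullD (A ⊗[ℂ] B) b M) (Om.pb (iB ℂ A B) w) _).trans ?_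
  rw [h1, aug0_pb]
  exact (smul_tmul' _ _ _).trans (congrArg (· ⊗ₜ[A] (pi0 b M).f y) (mul_one _))

theorem ctrP_tmul (x : T) (y : M.M.V) : (ctrP b M h).f (x ⊗ₜ[A] y) = h x • y := rfl

end Pull

variable {G : Grp} (K : GK G)

/-- The integral over the group. -/
def GK.hL (A : Type) [CommRing A] [Algebra ℂ A] : A ⊗[ℂ] K.O.R →ₗ[A] A :=
  (TensorProduct.AlgebraTensorModule.rid ℂ A A).toLinearMap ∘ₗ K.haar.baseChange A

theorem GK.hL_tmul {A : Type} [CommRing A] [Algebra ℂ A] (a : A) (f : K.O.R) :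
    K.hL A (a ⊗ₜ[ℂ] f) = K.haar f • a := rfl

theorem GK.cO_empty (w : Om ℂ K.O.R) : K.cO ∅ w = K.haar (aug0 K.O.R w) := by
  induction w using K.om_ind with
  | h0 => simp only [map_zero]
  | h2 x y hx hy => simp only [map_add, hx, hy]
  | h1 f S =>
    rw [K.cO_fb, map_smul]
    split_ifs with h
    · rw [← h, K.fb_empty, map_one, smul_eq_mul, mul_one]
    · have h0 : ∀ a, aug0 K.O.R (K.tO a) = 0 := fun a => aug0_io _
      have h1 : aug0 K.O.R (K.fb S) = 0 := by
        rw [K.fb_eq, thS, map_mul, map_mul]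
        by_cases h2 : 2 ∈ S
        · rw [if_pos h2, h0, zero_mul, zero_mul]
        by_cases h3 : 1 ∈ S
        · rw [if_pos h3, h0, mul_zero, zero_mul]
        by_cases h4 : 0 ∈ S
        · rw [if_pos h4, h0, mul_zero]
        refine absurd (Finset.eq_empty_of_forall_notMem fun a => ?_).symm h
        fin_cases a
        exacts [h4, h3, h2]
      rw [h1, smul_zero, map_zero]

variable {K} {I : Type} [SmallCategory I] {D : CD I} {s : ℂ}

namespace HG

variable (H : HG (K.gs D s)) (X : QO D)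

/-- The pull-back to the coproduct. -/
abbrev PL : H697.DGM (RQ G s X ⊗[ℂ] K.O.R) :=
  pullD (RQ G s X ⊗[ℂ] K.O.R) (bT (QS D G s) X) (H.K X)

/-- The comparison with the de Rham complex of the pull-back. -/
def k0 : GD.Hom (H.KV X).M (drO (bC K s X) (H.PL X)).M :=
  kv0 (A := RQ G s X) K.O.R (bT (QS D G s) X) (H.K X) (bC K s X)

/-- The projection to the forms of degree `0`. -/
def piK : GD.Hom (H.KV X).M (H.PL X).M := (pi0 (bC K s X) (H.PL X)).comp (H.k0 X)

theorem piK_kd : KD (H.KV X) (H.piK X) := fun a y =>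
  (congrArg (pi0 (bC K s X) (H.PL X)).f
    (kv0_rho (A := RQ G s X) (M := H.K X) (bT (QS D G s) X) (bC K s X) _ y)).trans
    (kd_pi0 (bC K s X) (H.PL X) a _)

/-- The map to the value on the coproduct. -/
def kap0 : GD.Hom (H.PL X).M (H.K (cop K X)).M := (H.pl X).u

theorem kap0_q (h : FC H.fa) : GD.Qis (H.kap0 X) := H.qis_pull h X

theorem kap0_piK (y : (H.KV X).M.V) :
    (H.kap0 X).f ((H.piK X).f y) = (H.pi (cop K X)).f ((H.kp0 X).f y) :=
  ((congrArg (H.pi (cop K X)).f (H.kp0_eq X y)).trans (outM_lT (H.pl X).lin _)).symm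

/-- The map `x ↦ 1 ⊗ x`. -/
def on : GD.Hom (H.K X).M (H.PL X).M :=
  (pullI (A := RQ G s X) (T := RQ G s X ⊗[ℂ] K.O.R) (bT (QS D G s) X) (H.K X)).u

theorem kap0_on (z : (H.K X).M.V) : (H.kap0 X).f ((H.on X).f z) = (H.t (inl K s X)).f z :=
  one_smul (RQ G s X ⊗[ℂ] K.O.R) (show (H.KC X).M.V from (H.t (inl K s X)).f z)

/-- The integral over the group. -/
def hr : GD.Hom (H.PL X).M (H.K X).M :=
  ctrP (A := RQ G s X) (bT (QS D G s) X) (H.K X) (K.hL (RQ G s X))

theorem hr_tmul (f : K.O.R) (z : (H.K X).M.V) :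
    (H.hr X).f (((1 : RQ G s X) ⊗ₜ[ℂ] f) ⊗ₜ[RQ G s X] z) = K.haar f • z :=
  (smul_assoc (K.haar f) (1 : RQ G s X) z).trans (congrArg (K.haar f • ·) (one_smul _ z))

theorem hr_on (z : (H.K X).M.V) : (H.hr X).f ((H.on X).f z) = z :=
  (H.hr_tmul X 1 z).trans (by rw [K.haar_one, one_smul])

theorem piK_ke (w : Om ℂ K.O.R) (y : (H.F X).M.V) : (H.piK X).f (H.ke X w y) =
    ((1 : RQ G s X) ⊗ₜ[ℂ] aug0 K.O.R w) ⊗ₜ[RQ G s X] (H.pi X).f y :=
  pi0_kv0 (A := RQ G s X) (bT (QS D G s) X) (H.K X) (bC K s X) w y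

theorem hr_piK (y : (H.KV X).M.V) :
    (H.hr X).f ((H.piK X).f y) = (H.pi X).f (H.kc X ∅ y) := by
  induction y using H.KV_ind with
  | zero => simp only [map_zero]
  | el w y => rw [piK_ke, hr_tmul, kc_ke, K.cO_empty, map_smul]
  | add x y hx hy => simp only [map_add, hx, hy]

end HG

end

end Vale.Agent.P286EX
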