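import Vale.Agent.P286EXK.Kv
import Vale.Agent.P286EX3.Pi

/-!
# Evaluation in form degree `0`
-/

set_option linter.all false

namespace Vale.Agent.P286EX

open TensorProduct Vale.Agent.P286 Vale.Agent.P286.H847 Vale.Agent.P286.H710 Vale.Agent.P286.H697
open Vale.Agent.P286.H389 (outM outM_tmul)

noncomputable section

variable {A B : Type} [CommRing A] [Algebra ℂ A] [CommRing B] [Algebra ℂ B]

/-- The map kills the forms of positive degree. -/
def KD (F : OmM A) {L : GD} (π : GD.Hom F.M L) : Prop :=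
  ∀ (a : A) (y : F.M.V), π.f ((Om.dd a : Om ℂ A) • y) = 0

theorem om_comm (F : OmM A) (a : A) (w : Om ℂ A) (y : F.M.V) : a • w • y = w • a • y := by
  rw [← OmM.asmul F a, ← OmM.asmul F a, ← mul_smul, ← mul_smul, Algebra.commutes]

namespace KD

variable {F : OmM A} {L : GD} {π : GD.Hom F.M L}

theorem smul (h : KD F π) (w : Om ℂ A) : ∀ y : F.M.V, π.f (w • y) = π.f (aug0 A w • y) := by
  induction w using Om.induction with
  | alg a => intro y; rw [OmM.asmul F, AlgHom.commutes]; rfl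
  | dd a => intro y; rw [h, aug0_dd, zero_smul, map_zero]
  | mul u v hu hv =>
    intro y
    rw [mul_smul, hu, om_comm, hv, map_mul, mul_comm, mul_smul]
  | add u v hu hv => intro y; rw [add_smul, map_add, hu, hv, map_add, add_smul, map_add]

theorem out (h : KD F π) {V : Type} [AddCommGroup V] [Module A V]
    (φ : DR ℂ A V →+ F.M.V) (hφ : ∀ (w : Om ℂ A) x, φ (w • x) = w • φ x) (x : DR ℂ A V) :
    π.f (φ x) = π.f (φ ((1 : Om ℂ A) ⊗ₜ[A] outM A V x)) := by
  induction x using DR.induction with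
  | zero => rw [map_zero (outM A V), tmul_zero]
  | tmul w v =>
    have h1 : w ⊗ₜ[A] v = w • ((1 : Om ℂ A) ⊗ₜ[A] v) := by rw [smul_tmul', smul_eq_mul, mul_one]
    have h2 : (1 : Om ℂ A) ⊗ₜ[A] (aug0 A w • v) =
        algebraMap A (Om ℂ A) (aug0 A w) • ((1 : Om ℂ A) ⊗ₜ[A] v) := by
      rw [algebraMap_smul, tmul_smul]
    rw [outM_tmul, h2, hφ, OmM.asmul F, ← h.smul, ← hφ, ← h1]
  | add x y hx hy => simp only [map_add, tmul_add, hx, hy]

theorem res (f : B →ₐ[ℂ] A) (h : KD F π) : KD (OmM.res f F) (L := L) π := fun a y =>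
  (congrArg π.f ((OmM.res_smul f F _ y).trans (congrArg (· • OmM.un y) (Om.pb_dd f a)))).trans
    (h _ _)

theorem comp (h : KD F π) {L' : GD} (u : GD.Hom L L') : KD F (u.comp π) := fun a y =>
  (congrArg u.f (h a y)).trans (map_zero _)

/-- The map `y ↦ π (a y)`. -/
def mul (h : KD F π) (a : A) : GD.Hom F.M L where
  f :=
    { toFun := fun y => π.f (a • y)
      map_add' := fun x y => by rw [smul_add, map_add]
      map_smul' := fun c y => by
        rw [← OmM.asmul F, ← OmF.Coch.smul_comm', map_smul, OmM.asmul F]; rfl }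
  comm y := by
    change π.f (a • F.M.d y) = L.d (π.f (a • y))
    rw [← π.comm, ← OmM.asmul F a y, F.leib, Om.d_algebraMap, map_add, h, zero_add, Om.sg.commutes,
      OmM.asmul F]
  deg m y hy := by
    have h1 := F.smul_gr 0 m (algebraMap A (Om ℂ A) a) y (SetLike.algebraMap_mem_graded _ a) hy
    rw [Nat.cast_zero, add_zero, OmM.asmul F] at h1
    exact π.deg m _ h1

theorem mul_apply (h : KD F π) (a : A) (y : F.M.V) : (h.mul a).f y = π.f (a • y) := rfl

theorem mul_kd (h : KD F π) (a : A) : KD F (h.mul a) := fun c y =>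
  (congrArg π.f (om_comm F a _ y)).trans (h c _)

variable {b : DB ℂ A} {M : DGM A}

/-- The evaluation at `1 ⊗ v` followed by `π`. -/
def ev (h : KD F π) (σ : Sg (drO b M)) (v : M.M.V) (h0 : v ∈ M.M.gr 0) (hd : M.M.d v = 0) :
    GD.Hom (Hm σ F) L where
  f :=
    { toFun := fun η => π.f (η ((1 : Om ℂ A) ⊗ₜ[A] v))
      map_add' := fun _ _ => map_add π.f _ _
      map_smul' := fun c _ => map_smul π.f c _ }
  comm η := by
    have h1 : (1 : Om ℂ A) ⊗ₜ[A] v ∈ (drO b M).M.gr 0 :=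
      M.tmul_mem (p := 0) (by simp) (SetLike.one_mem_graded _) h0
    have h2 : σ.s ((1 : Om ℂ A) ⊗ₜ[A] v) = (1 : Om ℂ A) ⊗ₜ[A] v := by rw [σ.s_gr 0 _ h1]; simp
    have h3 := h.out η.toAddMonoidHom η.map_smul ((drO b M).M.d ((1 : Om ℂ A) ⊗ₜ[A] v))
    have h4 : outM A M.M.V ((drO b M).M.d ((1 : Om ℂ A) ⊗ₜ[A] v)) = 0 :=
      ((pi0 b M).comm _).trans ((congrArg M.M.d (pi0_one b M v)).trans hd)
    rw [h4, tmul_zero, map_zero, map_zero] at h3
    change π.f (F.M.d (η (σ.s _)) - η ((drO b M).M.d (σ.s _))) = L.d (π.f (η _))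
    rw [h2, map_sub, π.comm]
    exact (congrArg (_ - ·) h3).trans (sub_zero _)
  deg m η hη := π.deg m _ (hmg_mem hη (zero_add m).symm
    (M.tmul_mem (p := 0) (by simp) (SetLike.one_mem_graded _) h0))

theorem ev_apply (h : KD F π) (σ : Sg (drO b M)) (v : M.M.V) (h0 : v ∈ M.M.gr 0)
    (hd : M.M.d v = 0) (η : (Hm σ F).V) :
    (h.ev σ v h0 hd).f η = π.f (η ((1 : Om ℂ A) ⊗ₜ[A] v)) := rfl

end KD

theorem kd_pi0 (b : DB ℂ A) (M : DGM A) : KD (drO b M) (pi0 b M) := fun a y => by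
  rw [pi0_smul, aug0_dd, zero_smul]

/-- A finite sum of morphisms. -/
def hsum {ι : Type} [Fintype ι] {M N : GD} (u : ι → GD.Hom M N) : GD.Hom M N where
  f := ∑ l, (u l).f
  comm x := by simp only [LinearMap.sum_apply, map_sum, GD.Hom.comm]
  deg m x hx := by
    rw [LinearMap.sum_apply]
    exact Submodule.sum_mem _ fun l _ => (u l).deg m x hx

theorem hsum_apply {ι : Type} [Fintype ι] {M N : GD} (u : ι → GD.Hom M N) (x : M.V) :
    (hsum u).f x = ∑ l, (u l).f x := LinearMap.sum_apply _ _ _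

end

end Vale.Agent.P286EX
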