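import Vale.Agent.P286EXV.Wire
import Vale.Agent.P286EXV.Ev
import Vale.Agent.P286EXK.Mk
import Vale.Agent.P286EX7.P0
import Vale.Agent.P286EXU.Rey

/-!
# The evaluation theorem from the data in level `0`
-/

set_option linter.all false

namespace Vale.Agent.P286EX

open CategoryTheory Matrix TensorProduct Vale.Agent.P286 Vale.Agent.P286.St Vale.Agent.P286.H847
  Vale.Agent.P286.H710 Vale.Agent.P286.H697 Vale.Agent.P286E
open Vale.Agent.P286.H761 (CO CS)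
open Vale.Agent.P286.H389 (outM)

noncomputable section

variable {I : Type} [SmallCategory I] {D : CD I} {G : Grp} {s : ℂ} {K : GK G} {xd : XD D}
  {U : Rep K}

namespace PD

variable (P : PD K xd s U)

/-- The generators of the part without ghosts. -/
abbrev v0 (X : QO D) (k : Fin U.n) : (P.P0 X).M.V := P.e0 X (0, k, true)

theorem v0_val (X : QO D) (k : Fin U.n) : (P.v0 X k).1 = P.uv X k := P.e0_val X _

theorem v0_gr (X : QO D) (k : Fin U.n) : P.v0 X k ∈ (P.P0 X).M.gr 0 := by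
  have h := P.e0_gr X (0, k, true)
  simpa [PD.dg] using h

theorem d_v0 (X : QO D) (k : Fin U.n) : (P.P0 X).M.d (P.v0 X k) = 0 :=
  Subtype.ext ((congrArg (P.P.K X).M.d (P.v0_val X k)).trans (P.d_uv X k))

/-- The element `1 ⊗ p`. -/
abbrev q1 (X : QO D) (p : (P.P.K X).M.V) : (P.Q X).M.V :=
  (1 : Om ℂ (RQ G s X)) ⊗ₜ[RQ G s X] p

/-- The element `1 ⊗ v`. -/
abbrev o0 (X : QO D) (k : Fin U.n) : (P.Q0 X).M.V :=
  (1 : Om ℂ (RQ G s X)) ⊗ₜ[RQ G s X] P.v0 X k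

theorem o1_t {X Y : QO D} (u : Ar G s X Y) (l : Fin U.n) : P.q1 Y ((P.P.t u).f (P.uv X l)) =
    ∑ j, Un.rr U u j l • P.q1 Y (P.uv Y j) := by
  rw [P.t_u, q1, tmul_sum]
  exact Finset.sum_congr rfl fun j _ => tmul_smul _ _ _

theorem o1_ri {X Y : QO D} (u : Ar G s X Y) (k : Fin U.n) : P.q1 Y (P.uv Y k) =
    ∑ l, Un.ri U u l k • P.q1 Y ((P.P.t u).f (P.uv X l)) := by
  simp only [o1_t]
  refine Eq.symm ((Un.sum_mul' (Un.rr U u) (Un.ri U u) (fun j => P.q1 Y (P.uv Y j)) k).trans ?_)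
  rw [Un.rr_ri]
  exact Un.sum_one (fun j => P.q1 Y (P.uv Y j)) k

variable (H : HG (K.gs D s)) (i : I)

/-- The first total. -/
abbrev M1 : GD := ((H.MK xd (P.σ0 (Zo xd i))).cs (ptF K xd s i)).Tot

/-- The second total. -/
abbrev M2 : GD := ((H.gau.MP K xd (P.σ0 (Zo xd i))).cs (ptF K xd s i)).Tot

/-- The level `0` of the first total. -/
abbrev L1 : GD := Hm (P.σ0 (Zo xd i)) (OmM.res (qf (inr K xd s (Zo xd i))) (H.KV (Zo xd i)))

/-- The level `0` of the second total. -/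
abbrev L2 : GD :=
  Hm (P.σ0 (Zo xd i)) (OmM.res (qf (inr K xd s (Zo xd i))) (H.F (cop K (Zo xd i))))

/-- The projection to the level `0`. -/
def p1 : GD.Hom (P.M1 H i) (P.L1 H i) :=
  CS.fromZero (X := (H.MK xd (P.σ0 (Zo xd i))).cs (ptF K xd s i)) (GD.Hom.id (P.L1 H i))

/-- The projection to the level `0`. -/
def p2 : GD.Hom (P.M2 H i) (P.L2 H i) :=
  CS.fromZero (X := (H.gau.MP K xd (P.σ0 (Zo xd i))).cs (ptF K xd s i)) (GD.Hom.id (P.L2 H i))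

/-- The comparison of the totals. -/
def kp : GD.Hom (P.M1 H i) (P.M2 H i) := ((H.kap xd (P.σ0 (Zo xd i))).cs (ptF K xd s i)).tot

theorem p2_kp (m : (P.M1 H i).V) (q : (P.Q0 (Zo xd i)).M.V) :
    OmM.un ((P.p2 H i).f ((P.kp H i).f m) q) =
      (H.kp0 (Zo xd i)).f (OmM.un ((P.p1 H i).f m q)) :=
  congrArg (fun ξ : (P.L2 H i).V => OmM.un (ξ q))
    (CS.Mor.tot_apply ((H.kap xd (P.σ0 (Zo xd i))).cs (ptF K xd s i)) m 0)

end PD

theorem HG.kd_pi (H : HG (K.gs D s)) (X : QO D) : KD (H.F X) (H.pi X) :=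
  kd_pi0 (bT (QS D G s) X) (H.K X)

theorem HG.pi_asmul (H : HG (K.gs D s)) (X : QO D) (a : RQ G s X) (y : (H.F X).M.V) :
    (H.pi X).f (a • y) = a • (H.pi X).f y := map_smul (outM (RQ G s X) (H.K X).M.V) a y

theorem HG.kp0_asmul (H : HG (K.gs D s)) (X : QO D) (a : RQ G s (cop K X)) (y : (H.KV X).M.V) :
    (H.kp0 X).f (a • y) = a • (H.kp0 X).f y := by
  rw [← OmM.asmul (H.KV X), H.kp0_smul, OmM.asmul]

theorem HG.kd_kp0 (H : HG (K.gs D s)) (X : QO D) :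
    KD (H.KV X) ((H.pi (cop K X)).comp (H.kp0 X)) := fun a y =>
  (congrArg (H.pi (cop K X)).f (H.kp0_smul _ y)).trans (H.kd_pi _ a _)

/-- The data in level `0`. -/
structure HL (P : PD K xd s U) (H : HG (K.gs D s)) (i : I) (N : GD)
    (e : Fin U.n → GD.Hom N (H.K (Zo xd i)).M) : Type 1 where
  n0 : N.V → (P.Q (Zo xd i)).M.V → (H.F (Zo xd i)).M.V
  e_eq : ∀ k x, (e k).f x = (H.pi (Zo xd i)).f (n0 x (P.q1 _ (P.uv _ k)))
  io : GD.Hom N (P.M1 H i)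
  r : GD.Hom (P.M1 H i) N
  r_io : ∀ x, r.f (io.f x) = x
  ext : N.V → (P.Q (cop K (Zo xd i))).M.V →ₗ[Om ℂ (RQ G s (cop K (Zo xd i)))] (H.KV (Zo xd i)).M.V
  ext_v : ∀ x k, ext x (P.q1 _ (P.uv _ k)) = (H.jk _).f (n0 x (P.q1 _ (P.uv _ k)))
  EG : Fin U.n → (P.Q (cop K (Zo xd i))).M.V
  EG_out : ∀ l, outM (RQ G s (cop K (Zo xd i))) _ (EG l) =
    (P.P.t (inr K xd s (Zo xd i))).f (P.uv _ l)
  io_v : ∀ x l, OmM.un ((P.p1 H i).f (io.f x) (P.o0 _ l)) = ext x (EG l)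
  hat : (P.M1 H i).V →
    (P.Q (cop K (Zo xd i))).M.V →ₗ[Om ℂ (RQ G s (cop K (Zo xd i)))] (H.KV (Zo xd i)).M.V
  hat_v : ∀ m l, hat m (P.q1 _ ((P.P.t (inr K xd s (Zo xd i))).f (P.uv _ l))) =
    OmM.un ((P.p1 H i).f m (P.o0 _ l))
  c0 : (H.KV (Zo xd i)).M.V → (H.F (Zo xd i)).M.V
  r_v : ∀ m k, n0 (r.f m) (P.q1 _ (P.uv _ k)) = c0 (hat m (P.q1 _ (P.uv _ k)))
  kap_q : GD.Qis (P.kp H i)
  aug : GD.Hom (Hm (P.σ0 (Zo xd i)) (H.F (Zo xd i))) (P.M2 H i)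
  aug_q : GD.Qis aug
  aug_zero : ∀ μ q, OmM.un ((P.p2 H i).f (aug.f μ) q) = H.ft (inr K xd s (Zo xd i)) (μ q)
  ev_inj : ∀ m μ, Cy (Hm (P.σ0 (Zo xd i)) (H.F (Zo xd i))) m μ →
    (∀ k, Bd (H.K (Zo xd i)).M m ((H.pi _).f (μ (P.o0 _ k)))) → Bd _ m μ
  ev_sur : ∀ m (z : Fin U.n → (H.K (Zo xd i)).M.V), (∀ k, Cy _ m (z k)) →
    ∃ μ, Cy (Hm (P.σ0 (Zo xd i)) (H.F (Zo xd i))) m μ ∧ ∀ k, (H.pi _).f (μ (P.o0 _ k)) = z k
  T : GD
  piK : GD.Hom (H.KV (Zo xd i)).M T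
  piK_kd : KD (H.KV (Zo xd i)) piK
  kap0 : GD.Hom T (H.K (cop K (Zo xd i))).M
  kap0_q : GD.Qis kap0
  kap0_piK : ∀ y, kap0.f (piK.f y) = (H.pi _).f ((H.kp0 _).f y)
  one : GD.Hom (H.K (Zo xd i)).M T
  kap0_one : ∀ z, kap0.f (one.f z) = (H.t (inl K s (Zo xd i))).f z
  hr : GD.Hom T (H.K (Zo xd i)).M
  hr_one : ∀ z, hr.f (one.f z) = z
  hr_piK : ∀ y, hr.f (piK.f y) = (H.pi _).f (c0 y)

namespace HL

variable {P : PD K xd s U} {H : HG (K.gs D s)} {i : I} {N : GD}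
  {e : Fin U.n → GD.Hom N (H.K (Zo xd i)).M} (W : HL P H i N e)

variable (P H i) in
/-- The evaluation on the coproduct. -/
def ec (l : Fin U.n) : GD.Hom (P.M2 H i) (H.K (cop K (Zo xd i))).M :=
  (((H.kd_pi (cop K (Zo xd i))).res (qf (inr K xd s (Zo xd i)))).ev (P.σ0 (Zo xd i)) (P.v0 _ l)
    (P.v0_gr _ l) (P.d_v0 _ l)).comp (P.p2 H i)

theorem ec_apply (l : Fin U.n) (m : (P.M2 H i).V) : (ec P H i l).f m =
    (H.pi (cop K (Zo xd i))).f (OmM.un ((P.p2 H i).f m (P.o0 _ l))) := rfl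

theorem ec_kp (l : Fin U.n) (m : (P.M1 H i).V) : (ec P H i l).f ((P.kp H i).f m) =
    (H.pi (cop K (Zo xd i))).f ((H.kp0 _).f (OmM.un ((P.p1 H i).f m (P.o0 _ l)))) := by
  rw [ec_apply, P.p2_kp]

/-- The evaluation in the group direction. -/
def eT (k : Fin U.n) : GD.Hom (P.M1 H i) W.T :=
  (hsum fun l => ((W.piK_kd.mul_kd (Un.ri U (inr K xd s (Zo xd i)) l k)).res
    (qf (inr K xd s (Zo xd i)))).ev (P.σ0 (Zo xd i)) (P.v0 _ l) (P.v0_gr _ l)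
      (P.d_v0 _ l)).comp (P.p1 H i)

theorem eT_apply (k : Fin U.n) (m : (P.M1 H i).V) : (W.eT k).f m = ∑ l, W.piK.f
    (Un.ri U (inr K xd s (Zo xd i)) l k • OmM.un ((P.p1 H i).f m (P.o0 _ l))) := hsum_apply _ _

theorem ec_io (l : Fin U.n) (x : N.V) : (ec P H i l).f ((P.kp H i).f (W.io.f x)) =
    ∑ j, Un.rr U (inr K xd s (Zo xd i)) j l • (H.t (inl K s (Zo xd i))).f ((e j).f x) := by
  have h := (H.kd_kp0 (Zo xd i)).out (W.ext x).toAddMonoidHom (W.ext x).map_smul (W.EG l)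
  rw [W.EG_out] at h
  rw [ec_kp, W.io_v]
  refine h.trans ?_
  change (H.pi _).f ((H.kp0 _).f (W.ext x (P.q1 _ _))) = _
  rw [P.o1_t, map_sum, map_sum, map_sum]
  refine Finset.sum_congr rfl fun j _ => ?_
  rw [map_asmul, H.kp0_asmul, H.pi_asmul, W.ext_v, H.kp0_jk, W.e_eq]
  exact congrArg _ (H.pi_t _ _)

theorem e_r (k : Fin U.n) (m : (P.M1 H i).V) : (e k).f (W.r.f m) = W.hr.f ((W.eT k).f m) := by
  rw [W.e_eq, W.r_v, ← W.hr_piK, eT_apply, P.o1_ri (inr K xd s (Zo xd i)), map_sum, map_sum]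
  exact congrArg _ (Finset.sum_congr rfl fun l _ => by rw [map_asmul, W.hat_v])

/-- The data of the formal part. -/
def hw : HW xd U H.fa i N e where
  M1 := P.M1 H i
  M2 := P.M2 H i
  MZ := Hm (P.σ0 (Zo xd i)) (H.F (Zo xd i))
  T := W.T
  io := W.io
  r := W.r
  r_io := W.r_io
  kap := P.kp H i
  kap_q := W.kap_q
  aug := W.aug
  aug_q := W.aug_q
  ev k := (H.kd_pi (Zo xd i)).ev (P.σ0 (Zo xd i)) (P.v0 _ k) (P.v0_gr _ k) (P.d_v0 _ k)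
  ev_inj := W.ev_inj
  ev_sur m z hz := by
    obtain ⟨μ, h1, h2⟩ := W.ev_sur m z hz
    exact ⟨μ, h1, fun k => ⟨0, zero_mem _, (map_zero _).trans (sub_eq_zero.2 (h2 k).symm).symm⟩⟩
  ec := ec P H i
  ec_aug l μ := (ec_apply l _).trans ((congrArg (H.pi _).f (W.aug_zero μ _)).trans (H.pi_t _ _))
  ec_io := W.ec_io
  ri := Un.ri U (inr K xd s (Zo xd i))
  r_ri := Un.rr_ri U _
  eT := W.eT
  kap0 := W.kap0
  kap0_q := W.kap0_q
  kap0_eT k m := by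
    rw [eT_apply, map_sum]
    refine Finset.sum_congr rfl fun l _ => ?_
    rw [W.kap0_piK, H.kp0_asmul, H.pi_asmul, ec_kp]
    rfl
  one := W.one
  kap0_one := W.kap0_one
  hr := W.hr
  hr_one := W.hr_one
  e_r := W.e_r

include W in
theorem hit : Hit xd U H.fa i N e := W.hw.hit

end HL

end

end Vale.Agent.P286EX
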