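import Vale.Agent.P286EX.Hit
import Vale.Agent.P286EX9.Ctr
import Vale.Agent.P286EC.Af

/-!
# The formal part of the evaluation theorem
-/

set_option linter.all false

namespace Vale.Agent.P286EX

open CategoryTheory Matrix TensorProduct Vale.Agent.P286 Vale.Agent.P286.St Vale.Agent.P286.H847
  Vale.Agent.P286E Vale.Agent.P286EG Vale.Agent.P286EK

noncomputable section

variable {I : Type} [SmallCategory I] {D : CD I} {G : Grp} {s : ℂ} {K : GK G}

/-- The matrix of the universal gauge transformation. -/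
abbrev rU (xd : XD D) (U : Rep K) (s : ℂ) (X : QO D) :
    Matrix (Fin U.n) (Fin U.n) (RQ G s (cop K X)) := U.at (qh (inr K xd s X)) (qpt _)

theorem rU_fold (xd : XD D) (U : Rep K) (X : QO D) :
    (rU xd U s X).map (QM.φ (fold K s X)) = 1 :=
  (U.rw_map (cg_pt K X) (QM.φ (fold K s X))).trans (U.rw_one _ ((dsc_cg K _ _ _).trans
    ((Matrix.mul_one _).trans adjugate_one)))

/-- The data of the evaluation theorem. -/
structure HW (xd : XD D) (U : Rep K) (F : FA (QS D G s)) (i : I) (N : GD)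
    (e : Fin U.n → GD.Hom N (F.M (Zo xd i)).G) : Type 1 where
  M1 : GD
  M2 : GD
  MZ : GD
  T : GD
  io : GD.Hom N M1
  r : GD.Hom M1 N
  r_io : ∀ x, r.f (io.f x) = x
  kap : GD.Hom M1 M2
  kap_q : GD.Qis kap
  aug : GD.Hom MZ M2
  aug_q : GD.Qis aug
  ev : Fin U.n → GD.Hom MZ (F.M (Zo xd i)).G
  ev_inj : ∀ m μ, Cy MZ m μ → (∀ k, Bd _ m ((ev k).f μ)) → Bd MZ m μ
  ev_sur : ∀ m (z : Fin U.n → (F.M (Zo xd i)).G.V), (∀ k, Cy _ m (z k)) →
    ∃ μ, Cy MZ m μ ∧ ∀ k, Bd _ m (z k - (ev k).f μ)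
  ec : Fin U.n → GD.Hom M2 (F.M (cop K (Zo xd i))).G
  ec_aug : ∀ l μ, (ec l).f (aug.f μ) = (F.t (inr K xd s (Zo xd i))).f ((ev l).f μ)
  ec_io : ∀ l x, (ec l).f (kap.f (io.f x)) = ∑ j, (F.M (cop K (Zo xd i))).fn
    (rU xd U s (Zo xd i) j l) ((F.t (inl K s (Zo xd i))).f ((e j).f x))
  ri : Matrix (Fin U.n) (Fin U.n) (RQ G s (cop K (Zo xd i)))
  r_ri : rU xd U s (Zo xd i) * ri = 1
  eT : Fin U.n → GD.Hom M1 T
  kap0 : GD.Hom T (F.M (cop K (Zo xd i))).G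
  kap0_q : GD.Qis kap0
  kap0_eT : ∀ k m, kap0.f ((eT k).f m) =
    ∑ l, (F.M (cop K (Zo xd i))).fn (ri l k) ((ec l).f (kap.f m))
  one : GD.Hom (F.M (Zo xd i)).G T
  kap0_one : ∀ z, kap0.f (one.f z) = (F.t (inl K s (Zo xd i))).f z
  hr : GD.Hom T (F.M (Zo xd i)).G
  hr_one : ∀ z, hr.f (one.f z) = z
  e_r : ∀ k m, (e k).f (r.f m) = hr.f ((eT k).f m)

namespace HW

variable {xd : XD D} {U : Rep K} {F : FA (QS D G s)} {i : I} {N : GD}
  {e : Fin U.n → GD.Hom N (F.M (Zo xd i)).G} (W : HW xd U F i N e)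

theorem inr_inj {m : ℤ} {z : (F.M (Zo xd i)).G.V}
    (h : Bd _ m ((F.t (inr K xd s (Zo xd i))).f z)) : Bd _ m z :=
  (h.map (F.t (fold K s (Zo xd i)))).of_eq ((F.t_comp _ _ z).symm.trans
    ((congrArg (fun u => (F.t u).f z) (inr_foldZ K xd i)).trans (F.t_id _ z)))

theorem sum_ri (y : Fin U.n → (F.M (cop K (Zo xd i))).G.V) (k : Fin U.n) :
    ∑ l, (F.M (cop K (Zo xd i))).fn (W.ri l k)
      (∑ j, (F.M (cop K (Zo xd i))).fn (rU xd U s (Zo xd i) j l) (y j)) = y k := by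
  simp only [map_sum]
  rw [Finset.sum_comm]
  have h : ∀ j, ∑ l, (F.M (cop K (Zo xd i))).fn (W.ri l k)
      ((F.M (cop K (Zo xd i))).fn (rU xd U s (Zo xd i) j l) (y j)) =
      (F.M (cop K (Zo xd i))).fn ((rU xd U s (Zo xd i) * W.ri) j k) (y j) := fun j => by
    rw [Matrix.mul_apply, map_sum, LinearMap.sum_apply]
    exact Finset.sum_congr rfl fun l _ => by rw [mul_comm, map_mul]; rfl
  simp only [h, W.r_ri]
  rw [Finset.sum_eq_single k (fun j _ hj => by rw [one_apply_ne hj, map_zero]; rfl)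
    (fun hk => absurd (Finset.mem_univ k) hk), one_apply_eq, map_one]
  rfl

include W

theorem inj (m : ℤ) (x : N.V) (hx : Cy N m x) (h : ∀ k, Bd _ m ((e k).f x)) : Bd N m x := by
  have hy := (hx.map W.io).map W.kap
  obtain ⟨μ, hμ, hb⟩ := qis_sur W.aug_q hy
  have h1 : ∀ l, Bd _ m ((W.ev l).f μ) := fun l => inr_inj
    (((Bd.sum _ fun j _ => ((h j).map _).fn _).of_eq (W.ec_io l x).symm).sub (hb.map (W.ec l))
      |>.of_eq (by rw [map_sub, sub_sub_cancel, W.ec_aug]))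
  have h2 := (hb.add ((W.ev_inj m μ hμ h1).map W.aug)).of_eq (sub_add_cancel _ _)
  exact ((qis_inj W.kap_q (hx.map W.io) h2).map W.r).of_eq (W.r_io x)

theorem sur (m : ℤ) (z : Fin U.n → (F.M (Zo xd i)).G.V) (hz : InvC xd U F i m z) :
    ∃ x, Cy N m x ∧ ∀ k, Bd _ m (z k - (e k).f x) := by
  obtain ⟨μ, hμ, h1⟩ := W.ev_sur m z hz.1
  obtain ⟨y, hy, h2⟩ := qis_sur W.kap_q (hμ.map W.aug)
  refine ⟨W.r.f y, hy.map _, fun k => ?_⟩
  have h3 : ∀ l, Bd _ m (∑ j, (F.M (cop K (Zo xd i))).fn (rU xd U s (Zo xd i) j l)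
      ((F.t (inl K s (Zo xd i))).f (z j)) - (W.ec l).f (W.kap.f y)) := fun l =>
    ((((h1 l).map (F.t (inr K xd s (Zo xd i)))).add (h2.map (W.ec l))).sub (hz.2 l)).of_eq (by
      rw [map_sub, map_sub, W.ec_aug, eqv]
      abel)
  have h4 : Bd W.T m (W.one.f (z k) - (W.eT k).f y) :=
    qis_inj W.kap0_q (((hz.1 k).map _).sub (hy.map _))
      ((Bd.sum Finset.univ fun l _ => (h3 l).fn (W.ri l k)).of_eq (by
        simp only [map_sub, Finset.sum_sub_distrib]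
        rw [W.sum_ri, W.kap0_one, W.kap0_eT]))
  exact (h4.map W.hr).of_eq (by rw [map_sub, W.hr_one, W.e_r])

theorem inv (m : ℤ) (x : N.V) (hx : Cy N m x) : InvC xd U F i m fun k => (e k).f x := by
  refine ⟨fun k => hx.map _, fun l => ?_⟩
  obtain ⟨μ, hμ, hb⟩ := qis_sur W.aug_q ((hx.map W.io).map W.kap)
  have h1 : ∀ l, Bd _ m (∑ j, (F.M (cop K (Zo xd i))).fn (rU xd U s (Zo xd i) j l)
      ((F.t (inl K s (Zo xd i))).f ((e j).f x)) -
      (F.t (inr K xd s (Zo xd i))).f ((W.ev l).f μ)) := fun l =>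
    (hb.map (W.ec l)).of_eq (by rw [map_sub, W.ec_aug, W.ec_io])
  have hf : ∀ (u : Ar G s (Zo xd i) (cop K (Zo xd i))), u ≫ fold K s (Zo xd i) = idA G s _ →
      ∀ z, (F.t (fold K s (Zo xd i))).f ((F.t u).f z) = z := fun u hu z =>
    (F.t_comp _ _ z).symm.trans ((congrArg (fun u => (F.t u).f z) hu).trans (F.t_id _ z))
  have h2 : Bd _ m ((e l).f x - (W.ev l).f μ) := ((h1 l).map (F.t (fold K s (Zo xd i)))).of_eq (by
    rw [map_sub, hf _ (inr_foldZ K xd i), map_sum]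
    congr 1
    have h3 : ∀ j, (F.t (fold K s (Zo xd i))).f ((F.M (cop K (Zo xd i))).fn
        (rU xd U s (Zo xd i) j l) ((F.t (inl K s (Zo xd i))).f ((e j).f x))) =
        (F.M (Zo xd i)).fn ((1 : Matrix (Fin U.n) (Fin U.n) (RQ G s (Zo xd i))) j l) ((e j).f x) :=
      fun j => (F.sl _ _ _).trans (congrArg₂ (fun a y => (F.M (Zo xd i)).fn a y)
        (congrFun (congrFun (rU_fold xd U (Zo xd i)) j) l) (hf _ (inl_fold K _) _))
    simp only [h3]
    rw [Finset.sum_eq_single l (fun j _ hj => by rw [one_apply_ne hj, map_zero]; rfl)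
      (fun hk => absurd (Finset.mem_univ l) hk), one_apply_eq, map_one]
    rfl)
  exact ((h2.map (F.t (inr K xd s (Zo xd i)))).sub (h1 l)).of_eq (by
    rw [map_sub, eqv]
    abel)

theorem hit : Hit xd U F i N e := ⟨W.inv, W.inj, W.sur⟩

end HW

end

end Vale.Agent.P286EX
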